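import Mathlib

/-!
# P160, piece SS-1: the abstract chain lemma

A weighted directed graph on a finite set `Ω` with weights `q`, a height `f` that strictly
increases along every arrow, a size `sz` that every arrow keeps or raises by one, balanced as
`in - out = (sz - n/2)/n`.  Then the total out-weight of the points of one level set of `f`
whose size is at least `n/2 - sqrt n` is at most `10 |Ω| / sqrt n`.
-/

namespace Vale.Agent.Lib.P160.H48

open Finset

/-- lower profile of the mass of the lazy chain after `k` steps at a point of size `j` -/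
noncomputable def psi (N k j : ℝ) : ℝ :=
  Real.exp (k * (j - N / 2) / (N * N) - k * (k - 1) / (4 * N * N ^ 2) - k / N ^ 2)

theorem psi_zero (N j : ℝ) : psi N 0 j = 1 := by simp [psi]

theorem psi_pos (N k j : ℝ) : 0 < psi N k j := Real.exp_pos _

theorem psi_mono {N k j j' : ℝ} (hN : 0 < N) (hk : 0 ≤ k) (hj : j ≤ j') :
    psi N k j ≤ psi N k j' := by
  unfold psi
  apply Real.exp_le_exp.mpr
  have h1 : k * (j - N / 2) / (N * N) ≤ k * (j' - N / 2) / (N * N) := by
    apply div_le_div_of_nonneg_right _ (by positivity)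
    apply mul_le_mul_of_nonneg_left _ hk
    linarith
  linarith

theorem psi_pred {N k j : ℝ} :
    psi N k j - psi N k (j - 1) ≤ psi N k j * (k / (N * N)) := by
  have h : psi N k (j - 1) = psi N k j * Real.exp (-(k / (N * N))) := by
    unfold psi
    rw [← Real.exp_add]
    congr 1
    ring
  rw [h]
  have h1 : 1 - k / (N * N) ≤ Real.exp (-(k / (N * N))) := by
    have := Real.add_one_le_exp (-(k / (N * N)))
    linarith
  have hp : 0 < psi N k j := Real.exp_pos _
  nlinarith

theorem psi_succ (N k j : ℝ) :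
    psi N (k + 1) j
      = psi N k j * Real.exp ((j - N / 2) / (N * N) - k / (2 * N * N ^ 2) - 1 / N ^ 2) := by
  unfold psi
  rw [← Real.exp_add]
  congr 1
  ring

/-- the one-step inequality, in real numbers only -/
theorem step_real {N s k j : ℝ} (hs4 : 4 ≤ s) (hs2 : s * s = N) (hk0 : 0 ≤ k) (hk : k ≤ N * s)
    (hj0 : 0 ≤ j) (hjN : j ≤ N) {U inn out T : ℝ} (hU : psi N k j ≤ U) (hout1 : out ≤ N)
    (hbal : inn - out = (j - N / 2) / N)
    (hT : inn * psi N k j - (1 / 2) * (psi N k j - psi N k (j - 1)) ≤ T) :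
    psi N (k + 1) j ≤ U * (1 - out / N) + (1 / N) * T := by
  have hN : 0 < N := by nlinarith
  have hN16 : 16 ≤ N := by nlinarith
  have hsN : s + 2 ≤ N := by nlinarith
  set P := psi N k j with hP
  set P1 := psi N k (j - 1) with hP1
  have hPpos : 0 < P := psi_pos _ _ _
  have hpred : P - P1 ≤ P * (k / (N * N)) := psi_pred
  set x : ℝ := (j - N / 2) / (N * N) with hx
  set y : ℝ := x - k / (2 * N * N ^ 2) - 1 / N ^ 2 with hy
  have hsucc : psi N (k + 1) j = P * Real.exp y := psi_succ N k j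
  have hxl : -(1 / (2 * N)) ≤ x := by
    rw [hx, le_div_iff₀ (by positivity)]
    have : -(1 / (2 * N)) * (N * N) = -(N / 2) := by field_simp
    rw [this]; linarith
  have hxu : x ≤ 1 / (2 * N) := by
    rw [hx, div_le_iff₀ (by positivity)]
    have : 1 / (2 * N) * (N * N) = N / 2 := by field_simp
    rw [this]; linarith
  have e1 : k / (2 * N * N ^ 2) ≤ s / (2 * N ^ 2) := by
    rw [div_le_div_iff₀ (by positivity) (by positivity)]
    have := mul_le_mul_of_nonneg_right hk (show (0:ℝ) ≤ 2 * N ^ 2 by positivity)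
    nlinarith
  have e2 : s / (2 * N ^ 2) + 1 / N ^ 2 ≤ 1 / (2 * N) := by
    have h3 : s / (2 * N ^ 2) + 1 / N ^ 2 = (s + 2) / (2 * N ^ 2) := by field_simp
    rw [h3, div_le_div_iff₀ (by positivity) (by positivity)]
    nlinarith
  have hd0 : 0 ≤ k / (2 * N * N ^ 2) := by positivity
  have hd1 : 0 ≤ 1 / N ^ 2 := by positivity
  have hhalf : 1 / (2 * N) + 1 / (2 * N) = 1 / N := by field_simp; ring
  have hNinv : 1 / N ≤ 1 := by
    rw [div_le_one hN]; linarith
  have hyabs : |y| ≤ 1 / N := by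
    rw [abs_le]
    constructor
    · linarith
    · linarith
  have hexp : Real.exp y ≤ 1 + y + 1 / N ^ 2 := by
    have h1 := Real.abs_exp_sub_one_sub_id_le (le_trans hyabs hNinv)
    have h2 : y ^ 2 ≤ (1 / N) ^ 2 := by
      rw [← sq_abs y]
      exact pow_le_pow_left₀ (abs_nonneg y) hyabs 2
    have h3 : (1 / N) ^ 2 = 1 / N ^ 2 := by rw [div_pow, one_pow]
    have h4 := (abs_le.mp h1).2
    linarith
  have hB1 : P * (1 - out / N) ≤ U * (1 - out / N) := by
    apply mul_le_mul_of_nonneg_right hU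
    rw [sub_nonneg, div_le_one hN]
    exact hout1
  have hB2 : (1 / N) * (inn * P - (1 / 2) * (P - P1)) ≤ (1 / N) * T :=
    mul_le_mul_of_nonneg_left hT (by positivity)
  have hB3 : P * (1 + x - k / (2 * N * N ^ 2))
      ≤ P * (1 - out / N) + (1 / N) * (inn * P - (1 / 2) * (P - P1)) := by
    have e : P * (1 - out / N) + (1 / N) * (inn * P - (1 / 2) * (P - P1))
        = P * (1 + (inn - out) / N) - (1 / (2 * N)) * (P - P1) := by
      field_simp
      ring
    have hxeq : (inn - out) / N = x := by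
      rw [hbal, hx, div_div]
    rw [e, hxeq]
    have h5 : (1 / (2 * N)) * (P - P1) ≤ (1 / (2 * N)) * (P * (k / (N * N))) :=
      mul_le_mul_of_nonneg_left hpred (by positivity)
    have e3 : (1 / (2 * N)) * (P * (k / (N * N))) = P * (k / (2 * N * N ^ 2)) := by
      field_simp
    rw [e3] at h5
    linarith
  have hC : P * Real.exp y ≤ P * (1 + x - k / (2 * N * N ^ 2)) := by
    apply mul_le_mul_of_nonneg_left _ hPpos.le
    linarith
  rw [hsucc]
  linarith

/-- the profile is at least `1/5` on the sizes `≥ N/2 - sqrt N`, for `k ≤ N sqrt N` steps -/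
theorem psi_fifth {N s k j : ℝ} (hs4 : 4 ≤ s) (hs2 : s * s = N) (hk0 : 0 ≤ k) (hk : k ≤ N * s)
    (hj : N / 2 - s ≤ j) : 1 / 5 ≤ psi N k j := by
  have hN : 0 < N := by nlinarith
  have hs0 : 0 ≤ s := by linarith
  have t1 : -1 ≤ k * (j - N / 2) / (N * N) := by
    rw [le_div_iff₀ (by positivity)]
    have h1 := mul_le_mul_of_nonneg_left (show -s ≤ j - N / 2 by linarith) hk0
    have h2 := mul_le_mul_of_nonneg_right hk hs0
    nlinarith
  have t2 : k * (k - 1) / (4 * N * N ^ 2) ≤ 1 / 4 := by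
    rw [div_le_iff₀ (by positivity)]
    have h1 : k * k ≤ (N * s) * (N * s) := mul_le_mul hk hk hk0 (by positivity)
    have h2 : (N * s) * (N * s) = N * N ^ 2 := by
      calc (N * s) * (N * s) = N * N * (s * s) := by ring
        _ = N * N ^ 2 := by rw [hs2]; ring
    nlinarith
  have t3 : k / N ^ 2 ≤ 1 / 4 := by
    rw [div_le_iff₀ (by positivity)]
    have h1 : N * s * 4 ≤ N * s * s := mul_le_mul_of_nonneg_left hs4 (by positivity)
    have h2 : N * s * s = N ^ 2 := by rw [mul_assoc, hs2]; ring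
    nlinarith
  have hE : -(3 / 2 : ℝ) ≤ k * (j - N / 2) / (N * N) - k * (k - 1) / (4 * N * N ^ 2) - k / N ^ 2 := by
    linarith
  have ha : Real.exp (1 / 2) * Real.exp (1 / 2) = Real.exp 1 := by
    rw [← Real.exp_add]; norm_num
  have ha0 := Real.exp_pos (1 / 2)
  have he := Real.exp_one_lt_d9
  have ha2 : Real.exp (1 / 2) < 1.65 := by nlinarith
  have h32 : Real.exp (3 / 2) = Real.exp 1 * Real.exp (1 / 2) := by
    rw [← Real.exp_add]; norm_num
  have h5 : Real.exp (3 / 2) < 5 := by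
    rw [h32]
    have he0 := Real.exp_pos 1
    nlinarith
  have hm : Real.exp (-(3 / 2)) * Real.exp (3 / 2) = 1 := by
    rw [← Real.exp_add]; norm_num
  have hm0 := Real.exp_pos (-(3 / 2 : ℝ))
  have h15 : 1 / 5 ≤ Real.exp (-(3 / 2)) := by nlinarith
  unfold psi
  exact le_trans h15 (Real.exp_le_exp.mpr hE)

section chain

variable {Ω : Type} [Fintype Ω]

/-- one step of the lazy chain with jump rates `q / n`, acting on masses -/
noncomputable def stepU (q : Ω → Ω → ℝ) (n : ℕ) (u : Ω → ℝ) : Ω → ℝ := fun S =>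
  u S * (1 - (∑ S', q S S') / n) + (1 / (n : ℝ)) * ∑ S', q S' S * u S'

/-- mass after `k` steps, started from the counting measure -/
noncomputable def uu (q : Ω → Ω → ℝ) (n : ℕ) (k : ℕ) : Ω → ℝ := (stepU q n)^[k] fun _ => 1

theorem uu_zero (q : Ω → Ω → ℝ) (n : ℕ) (S : Ω) : uu q n 0 S = 1 := rfl

theorem uu_succ (q : Ω → Ω → ℝ) (n : ℕ) (k : ℕ) (S : Ω) :
    uu q n (k + 1) S = uu q n k S * (1 - (∑ S', q S S') / n)
      + (1 / (n : ℝ)) * ∑ S', q S' S * uu q n k S' := by
  unfold uu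
  rw [Function.iterate_succ_apply']
  rfl

theorem uu_nonneg (q : Ω → Ω → ℝ) (n : ℕ) (hn : 0 < n) (hq0 : ∀ S S', 0 ≤ q S S')
    (hout : ∀ S, ∑ S', q S S' ≤ n) : ∀ k S, 0 ≤ uu q n k S := by
  intro k
  induction k with
  | zero => intro S; rw [uu_zero]; norm_num
  | succ k ih =>
    intro S
    have hN : (0:ℝ) < n := by exact_mod_cast hn
    have h1 : 0 ≤ 1 - (∑ S', q S S') / n := by
      rw [sub_nonneg, div_le_one hN]
      exact hout S
    rw [uu_succ]
    exact add_nonneg (mul_nonneg (ih S) h1)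
      (mul_nonneg (by positivity) (Finset.sum_nonneg fun S' _ => mul_nonneg (hq0 S' S) (ih S')))

theorem sqrt_ge_four {n : ℕ} (hn : 16 ≤ n) : 4 ≤ Real.sqrt n := by
  have hN16 : (16:ℝ) ≤ n := by exact_mod_cast hn
  have h16 : Real.sqrt 16 = 4 := by
    rw [show (16:ℝ) = 4 ^ 2 by norm_num]; exact Real.sqrt_sq (by norm_num)
  rw [← h16]
  exact Real.sqrt_le_sqrt hN16

theorem uu_lower (q : Ω → Ω → ℝ) (sz : Ω → ℕ) (n : ℕ) (hn : 16 ≤ n)
    (hq0 : ∀ S S', 0 ≤ q S S')
    (hsz : ∀ S' S, q S' S ≠ 0 → sz S' = sz S ∨ sz S' + 1 = sz S)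
    (hent : ∀ S, ∑ S' ∈ univ.filter (fun S' => sz S' + 1 = sz S), q S' S ≤ 1 / 2)
    (hbal : ∀ S, ∑ S', q S' S - ∑ S', q S S' = ((sz S : ℝ) - n / 2) / n)
    (hout : ∀ S, ∑ S', q S S' ≤ n) (hszn : ∀ S, sz S ≤ n) :
    ∀ k : ℕ, (k : ℝ) ≤ n * Real.sqrt n → ∀ S, psi n k (sz S) ≤ uu q n k S := by
  have hN16 : (16:ℝ) ≤ n := by exact_mod_cast hn
  have hN : (0:ℝ) < n := by linarith
  have hs2 : Real.sqrt n * Real.sqrt n = n := Real.mul_self_sqrt hN.le
  have hs4 : 4 ≤ Real.sqrt n := sqrt_ge_four hn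
  intro k
  induction k with
  | zero => intro _ S; rw [uu_zero, Nat.cast_zero, psi_zero]
  | succ k ih =>
    intro hk S
    have hk' : (k:ℝ) ≤ n * Real.sqrt n := by push_cast at hk; linarith
    have hk0 : (0:ℝ) ≤ k := Nat.cast_nonneg k
    have IH := ih hk'
    have hj0 : (0:ℝ) ≤ (sz S : ℝ) := Nat.cast_nonneg _
    have hjN : (sz S : ℝ) ≤ n := by exact_mod_cast hszn S
    have hP1P : psi n k ((sz S : ℝ) - 1) ≤ psi n k (sz S) := psi_mono hN hk0 (by linarith)
    have hA : (∑ S', q S' S) * psi n k (sz S)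
        - (1 / 2) * (psi n k (sz S) - psi n k ((sz S : ℝ) - 1))
          ≤ ∑ S', q S' S * uu q n k S' := by
      have h1 : ∀ S', q S' S * (if sz S' + 1 = sz S then psi n k ((sz S : ℝ) - 1)
          else psi n k (sz S)) ≤ q S' S * uu q n k S' := by
        intro S'
        by_cases hq : q S' S = 0
        · simp [hq]
        · apply mul_le_mul_of_nonneg_left _ (hq0 S' S)
          rcases hsz S' S hq with h | h
          · have hne : ¬ (sz S' + 1 = sz S) := by omega
            rw [if_neg hne]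
            have h7 := IH S'
            rw [h] at h7
            exact h7
          · rw [if_pos h]
            have h7 := IH S'
            have hc : ((sz S' : ℕ) : ℝ) = (sz S : ℝ) - 1 := by
              rw [← h]; push_cast; ring
            rw [hc] at h7
            exact h7
      have h2 : ∑ S', q S' S * (if sz S' + 1 = sz S then psi n k ((sz S : ℝ) - 1)
          else psi n k (sz S))
          = (∑ S', q S' S) * psi n k (sz S)
            - (∑ S' ∈ univ.filter (fun S' => sz S' + 1 = sz S), q S' S)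
              * (psi n k (sz S) - psi n k ((sz S : ℝ) - 1)) := by
        rw [Finset.sum_mul, Finset.sum_mul, Finset.sum_filter, ← Finset.sum_sub_distrib]
        apply Finset.sum_congr rfl
        intro S' _
        split_ifs <;> ring
      have h3 := hent S
      have h4 : 0 ≤ psi n k (sz S) - psi n k ((sz S : ℝ) - 1) := by linarith
      have h5 : (∑ S' ∈ univ.filter (fun S' => sz S' + 1 = sz S), q S' S)
          * (psi n k (sz S) - psi n k ((sz S : ℝ) - 1))
          ≤ (1 / 2) * (psi n k (sz S) - psi n k ((sz S : ℝ) - 1)) :=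
        mul_le_mul_of_nonneg_right h3 h4
      have h6 := Finset.sum_le_sum fun S' (_ : S' ∈ (univ : Finset Ω)) => h1 S'
      rw [h2] at h6
      linarith
    rw [uu_succ, Nat.cast_succ]
    exact step_real hs4 hs2 hk0 hk' hj0 hjN (IH S) (hout S) (hbal S) hA

/-- mass of the lazy chain on the sublevel set `f ≤ x` -/
noncomputable def mm (q : Ω → Ω → ℝ) (f : Ω → ℝ) (n : ℕ) (x : ℝ) (k : ℕ) : ℝ :=
  ∑ S, if f S ≤ x then uu q n k S else 0

theorem mm_step (q : Ω → Ω → ℝ) (f : Ω → ℝ) (n : ℕ) (hn : 0 < n)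
    (hq0 : ∀ S S', 0 ≤ q S S') (hf : ∀ S S', q S S' ≠ 0 → f S < f S')
    (hout : ∀ S, ∑ S', q S S' ≤ n) (x : ℝ) (k : ℕ) :
    mm q f n x (k + 1)
        + (1 / (n : ℝ)) * ∑ S, (if f S = x then uu q n k S * ∑ S', q S S' else 0)
      ≤ mm q f n x k := by
  have hN : (0:ℝ) < n := by exact_mod_cast hn
  have hu := uu_nonneg q n hn hq0 hout k
  have hin : ∑ S, (if f S ≤ x then ∑ S', q S' S * uu q n k S' else 0)
      ≤ ∑ S', (if f S' < x then uu q n k S' * ∑ S, q S' S else 0) := by
    have e : ∑ S, (if f S ≤ x then ∑ S', q S' S * uu q n k S' else 0)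
        = ∑ S', ∑ S, (if f S ≤ x then q S' S * uu q n k S' else 0) := by
      rw [Finset.sum_comm]
      apply Finset.sum_congr rfl
      intro S _
      split_ifs
      · rfl
      · simp
    rw [e]
    apply Finset.sum_le_sum
    intro S' _
    by_cases h : f S' < x
    · rw [if_pos h, Finset.mul_sum]
      apply Finset.sum_le_sum
      intro S _
      split_ifs
      · rw [mul_comm]
      · exact mul_nonneg (hu S') (hq0 S' S)
    · rw [if_neg h]
      apply le_of_eq
      apply Finset.sum_eq_zero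
      intro S _
      split_ifs with h2
      · have hz : q S' S = 0 := by
          by_contra hne
          have h8 := hf S' S hne
          exact h (lt_of_lt_of_le h8 h2)
        rw [hz, zero_mul]
      · rfl
  have hsplit : ∀ S, (if f S ≤ x then uu q n k S * ∑ S', q S S' else 0)
      = (if f S < x then uu q n k S * ∑ S', q S S' else 0)
        + (if f S = x then uu q n k S * ∑ S', q S S' else 0) := by
    intro S
    rcases lt_trichotomy (f S) x with h | h | h
    · rw [if_pos h.le, if_pos h, if_neg h.ne, add_zero]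
    · rw [if_pos h.le, if_neg (by rw [h]; exact lt_irrefl x), if_pos h, zero_add]
    · rw [if_neg (not_le.mpr h), if_neg (not_lt.mpr h.le), if_neg h.ne', add_zero]
  have hexpand : mm q f n x (k + 1)
      = mm q f n x k
        - (1 / (n:ℝ)) * ∑ S, (if f S ≤ x then uu q n k S * ∑ S', q S S' else 0)
        + (1 / (n:ℝ)) * ∑ S, (if f S ≤ x then ∑ S', q S' S * uu q n k S' else 0) := by
    unfold mm
    rw [Finset.mul_sum, Finset.mul_sum, ← Finset.sum_sub_distrib, ← Finset.sum_add_distrib]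
    apply Finset.sum_congr rfl
    intro S _
    rw [uu_succ]
    split_ifs
    · ring
    · ring
  rw [hexpand]
  have h2 : ∑ S, (if f S ≤ x then uu q n k S * ∑ S', q S S' else 0)
      = ∑ S, (if f S < x then uu q n k S * ∑ S', q S S' else 0)
        + ∑ S, (if f S = x then uu q n k S * ∑ S', q S S' else 0) := by
    rw [← Finset.sum_add_distrib]
    exact Finset.sum_congr rfl fun S _ => hsplit S
  rw [h2]
  have h3 := mul_le_mul_of_nonneg_left hin (show (0:ℝ) ≤ 1 / (n:ℝ) by positivity)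
  rw [mul_add]
  linarith

/-- **The abstract chain lemma (piece SS-1).** -/
theorem chain_level [DecidableEq Ω] (q : Ω → Ω → ℝ) (f : Ω → ℝ) (sz : Ω → ℕ) (n : ℕ) (hn : 16 ≤ n)
    (hq0 : ∀ S S', 0 ≤ q S S') (hf : ∀ S S', q S S' ≠ 0 → f S < f S')
    (hsz : ∀ S' S, q S' S ≠ 0 → sz S' = sz S ∨ sz S' + 1 = sz S)
    (hent : ∀ S, ∑ S' ∈ univ.filter (fun S' => sz S' + 1 = sz S), q S' S ≤ 1 / 2)
    (hbal : ∀ S, ∑ S', q S' S - ∑ S', q S S' = ((sz S : ℝ) - n / 2) / n)
    (hout : ∀ S, ∑ S', q S S' ≤ n) (hszn : ∀ S, sz S ≤ n) (x : ℝ) :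
    Real.sqrt n * ∑ S ∈ univ.filter (fun S => f S = x ∧ (n : ℝ) / 2 - Real.sqrt n ≤ sz S),
        ∑ S', q S S' ≤ 10 * Fintype.card Ω := by
  have hn0 : 0 < n := by omega
  have hN16 : (16:ℝ) ≤ n := by exact_mod_cast hn
  have hN : (0:ℝ) < n := by linarith
  have hs2 : Real.sqrt n * Real.sqrt n = n := Real.mul_self_sqrt hN.le
  have hs4 : 4 ≤ Real.sqrt n := sqrt_ge_four hn
  have hG0 : 0 ≤ ∑ S ∈ univ.filter (fun S => f S = x ∧ (n : ℝ) / 2 - Real.sqrt n ≤ sz S),
      ∑ S', q S S' :=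
    Finset.sum_nonneg fun S _ => Finset.sum_nonneg fun S' _ => hq0 S S'
  have hloss : ∀ k : ℕ, (k:ℝ) ≤ n * Real.sqrt n →
      (1 / 5) * ∑ S ∈ univ.filter (fun S => f S = x ∧ (n : ℝ) / 2 - Real.sqrt n ≤ sz S),
        ∑ S', q S S'
        ≤ ∑ S, (if f S = x then uu q n k S * ∑ S', q S S' else 0) := by
    intro k hk
    have hlow := uu_lower q sz n hn hq0 hsz hent hbal hout hszn k hk
    have hu := uu_nonneg q n hn0 hq0 hout k
    rw [Finset.mul_sum, Finset.sum_filter]
    apply Finset.sum_le_sum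
    intro S _
    have hoS : 0 ≤ ∑ S', q S S' := Finset.sum_nonneg fun S' _ => hq0 S S'
    by_cases h : f S = x ∧ (n : ℝ) / 2 - Real.sqrt n ≤ sz S
    · rw [if_pos h, if_pos h.1]
      apply mul_le_mul_of_nonneg_right _ hoS
      exact le_trans (psi_fifth hs4 hs2 (Nat.cast_nonneg k) hk h.2) (hlow S)
    · rw [if_neg h]
      split_ifs
      · exact mul_nonneg (hu S) hoS
      · exact le_refl _
  have htel : ∀ K : ℕ, (K:ℝ) ≤ n * Real.sqrt n →
      mm q f n x K + (K:ℝ) * ((1 / (n:ℝ)) * ((1 / 5) *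
        ∑ S ∈ univ.filter (fun S => f S = x ∧ (n : ℝ) / 2 - Real.sqrt n ≤ sz S), ∑ S', q S S'))
        ≤ mm q f n x 0 := by
    intro K
    induction K with
    | zero => intro _; simp
    | succ K ih =>
      intro hK
      have hK' : (K:ℝ) ≤ n * Real.sqrt n := by push_cast at hK; linarith
      have h1 := ih hK'
      have h2 := mm_step q f n hn0 hq0 hf hout x K
      have h3 := hloss K hK'
      have h4 := mul_le_mul_of_nonneg_left h3 (show (0:ℝ) ≤ 1 / (n:ℝ) by positivity)
      rw [Nat.cast_succ, add_mul, one_mul]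
      linarith
  have hm0 : mm q f n x 0 ≤ Fintype.card Ω := by
    unfold mm
    calc ∑ S, (if f S ≤ x then uu q n 0 S else 0) ≤ ∑ _S : Ω, (1:ℝ) := by
          apply Finset.sum_le_sum
          intro S _
          split_ifs
          · rw [uu_zero]
          · norm_num
      _ = Fintype.card Ω := by simp
  have hmK : ∀ K, 0 ≤ mm q f n x K := fun K => Finset.sum_nonneg fun S _ => by
    split_ifs
    · exact uu_nonneg q n hn0 hq0 hout K S
    · exact le_refl _
  have hKle : ((⌊(n:ℝ) * Real.sqrt n⌋₊ : ℕ) : ℝ) ≤ n * Real.sqrt n :=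
    Nat.floor_le (by positivity)
  have hKgt : (n:ℝ) * Real.sqrt n < ((⌊(n:ℝ) * Real.sqrt n⌋₊ : ℕ) : ℝ) + 1 :=
    Nat.lt_floor_add_one _
  have h1 := htel _ hKle
  have h2 := hmK ⌊(n:ℝ) * Real.sqrt n⌋₊
  have hK2 : (n:ℝ) * Real.sqrt n / 2 ≤ ((⌊(n:ℝ) * Real.sqrt n⌋₊ : ℕ) : ℝ) := by
    nlinarith
  have hc0 : 0 ≤ (1 / (n:ℝ)) * ((1 / 5) *
      ∑ S ∈ univ.filter (fun S => f S = x ∧ (n : ℝ) / 2 - Real.sqrt n ≤ sz S), ∑ S', q S S') :=
    mul_nonneg (by positivity) (mul_nonneg (by norm_num) hG0)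
  have h3 := mul_le_mul_of_nonneg_right hK2 hc0
  have h4 : (n:ℝ) * Real.sqrt n / 2 * ((1 / (n:ℝ)) * ((1 / 5) *
      ∑ S ∈ univ.filter (fun S => f S = x ∧ (n : ℝ) / 2 - Real.sqrt n ≤ sz S), ∑ S', q S S'))
      = Real.sqrt n * (∑ S ∈ univ.filter (fun S => f S = x ∧ (n : ℝ) / 2 - Real.sqrt n ≤ sz S),
        ∑ S', q S S') / 10 := by
    field_simp
    ring
  rw [h4] at h3
  linarith

end chain

end Vale.Agent.Lib.P160.H48
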